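import Vale.Agent.P097F.TS.Top
import Vale.Agent.P097F.NC.All
import Vale.Agent.P097D.L.Bnd

/-!
# P097F.L2: a place with bounded states
-/

set_option linter.all false

noncomputable section

namespace Vale.Agent.P097F.L2

open Set Metric Filter Topology Complex Vale.Agent.P097F.NC Vale.Agent.P097F.TS

theorem specL : Spec_L := by
  intro K m a₀ c₀ a0 c0
  obtain ⟨γ₀, γ0, NS⟩ := nc2 (2 * K) a₀ c₀ a0 c0
  obtain ⟨j₀, hj₀⟩ := exists_nat_ge (2 / γ₀)
  refine ⟨j₀ + 16, fun j hj M => ?_⟩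
  obtain ⟨M', M1, ap⟩ := apr m j M (by omega)
  have j1 : (j₀ : ℝ) + 16 ≤ j := by exact_mod_cast hj
  have j2 := Nat.cast_nonneg (α := ℝ) j₀
  have j0 : (0 : ℝ) < j := by linarith
  obtain ⟨W₁, NS⟩ := NS (2 / j) M' (by positivity) (by
    rw [div_le_iff₀ γ0] at hj₀
    rw [div_le_iff₀ j0]
    nlinarith) M1
  refine ⟨max W₁ 2, fun W hW g Y P p T₀ L T Li nd F p0 pT WT TW LW _ wa => ?_⟩
  have W2 : 2 ≤ W := (le_max_right _ _).trans hW
  have T4 : 4 ≤ T₀ := by nlinarith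
  have K2 : W ^ (2 * K) = (W ^ K) ^ 2 := by rw [← pow_mul, mul_comm]
  have K4 : 4 ≤ W ^ K := T4.trans TW
  have L0 := le_max_right L 0
  have L1 : max L 0 ≤ W ^ K := max_le LW (by linarith)
  obtain ⟨k, Pk, hk⟩ := P097D.L.bnd1 g Y W p (2 / j) M' (T₀ ^ 2) (max L 0) (1 / 2) P F
    (by linarith) p0 (by nlinarith) (by positivity) (by rw [div_le_iff₀ j0]; linarith) L0
    (by norm_num) (nd _ (by norm_num)) (fun a Pa => by
      have h1 := ap _ (Li.ap a Pa)
      have h2 := anc_shift (wa a Pa) (by linarith)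
      refine ⟨h1, by simpa using h2, fun x x1 x2 => ?_⟩
      have := NS W ((le_max_left _ _).trans hW) _ _ p (T₀ ^ 2) (lf_shift F a)
        (by simpa using h1) (act_shift Li.act a) p0 (by nlinarith) (by rw [K2]; gcongr) h2
        (x - (a : ℝ)) (by
          rw [sub_re, ofReal_re, K2]
          nlinarith) (by simpa using x2)
      simpa using this) (fun t₀ => by
      obtain ⟨t, ht⟩ := exists_nat_ge t₀
      obtain ⟨J, h1, h2⟩ := Li.dens t
      refine ⟨t, ht, J, fun a ha => ⟨by exact_mod_cast (h1 a ha).1, (h1 a ha).2⟩, ?_⟩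
      have : (t : ℝ) ≤ J.card := by exact_mod_cast h2
      linarith [Nat.cast_nonneg (α := ℝ) t])
  obtain ⟨B, hB⟩ := hk T
  refine ⟨k, Pk, 1 / 32, by norm_num, B, fun x ⟨x1, x2, x3, x4⟩ => ?_⟩
  have x5 : |x.re - k| ≤ max L 0 :=
    abs_le.2 ⟨by linarith [le_max_left L 0], by linarith [le_max_left L 0]⟩
  refine ⟨?_, hB x x5 x3.le x4⟩
  have := NS W ((le_max_left _ _).trans hW) _ _ p (T₀ ^ 2) (lf_shift F k)
    (by simpa using ap _ (Li.ap k Pk)) (act_shift Li.act k) p0 (by nlinarith)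
    (by rw [K2]; gcongr) (anc_shift (wa k Pk) (by linarith)) (x - (k : ℝ)) (by
      rw [sub_re, ofReal_re, K2]
      nlinarith) (by simpa using x4)
  have e : (Y x).im ≤ -1 / 32 := by simpa using this
  linarith

end Vale.Agent.P097F.L2
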